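import Vale.Agent.P371ES.Sol

/-!
Direct sums of solitons have an optimal system (`CONV`).
-/

namespace Vale.Agent.P371ES

open MeasureTheory Filter Topology Matrix Set
open Vale.Agent.P371 Vale.Agent.P371.G Vale.Agent.P371.PI Vale.Agent.P371E
open scoped ComplexOrder

theorem mem_smul {m : ℕ} {h : ℝ → ℝ} (hc : Continuous h) (h2 : MemLp h 2 volume) (y : Vec m) :
    MemLp (fun x => ((h x : ℝ) : ℂ) • y) 2 volume := by
  refine MemLp.of_le_mul (c := ‖y‖) h2
    ((Complex.continuous_ofReal.comp hc).smul continuous_const).aestronglyMeasurable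
    (Eventually.of_forall fun x => ?_)
  rw [norm_smul, Complex.norm_real, mul_comm]

theorem h1_smul {m : ℕ} {h h' : ℝ → ℝ} (hd : ∀ x, HasDerivAt h (h' x) x) (hc : Continuous h')
    (h2 : MemLp h 2 volume) (h2' : MemLp h' 2 volume) (y : Vec m) :
    IsH1 (fun x => ((h x : ℝ) : ℂ) • y) (fun x => ((h' x : ℝ) : ℂ) • y) where
  memLp := mem_smul (continuous_iff_continuousAt.mpr fun x => (hd x).continuousAt) h2 y
  memLp_deriv := mem_smul hc h2' y
  ftc := by
    intro a b
    symm
    apply intervalIntegral.integral_eq_sub_of_hasDerivAt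
    · intro x _
      exact (hd x).ofReal_comp.smul_const y
    · exact ((Complex.continuous_ofReal.comp hc).smul continuous_const).intervalIntegrable a b

/-- a classical solution in a constant direction is an eigenfunction -/
theorem eig_smul {m : ℕ} {W : ℝ → Mat m m} {lam : ℝ} {h h' h'' : ℝ → ℝ}
    (hd : ∀ x, HasDerivAt h (h' x) x) (hd' : ∀ x, HasDerivAt h' (h'' x) x) (hc : Continuous h'')
    (h2 : MemLp h 2 volume) (h2' : MemLp h' 2 volume) (h2'' : MemLp h'' 2 volume) (y : Vec m)
    (hW : ∀ᵐ x, Matrix.toEuclideanLin (W x) (((h x : ℝ) : ℂ) • y) =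
      ((-h'' x - lam * h x : ℝ) : ℂ) • y) :
    IsEigenfunction W lam (fun x => ((h x : ℝ) : ℂ) • y) (fun x => ((h' x : ℝ) : ℂ) • y) where
  isH1 := h1_smul hd (continuous_iff_continuousAt.mpr fun x => (hd' x).continuousAt) h2 h2' y
  form_eq := by
    intro g g' hg
    set G : ℝ → ℂ := fun x => inner ℂ y (g x) with hG
    set G' : ℝ → ℂ := fun x => inner ℂ y (g' x) with hG'
    have hg'i : ∀ a b, IntervalIntegrable g' volume a b := fun a b =>
      intervalIntegrable_iff.mpr
        (((hg.memLp_deriv.locallyIntegrable (by norm_num)).integrableOn_isCompact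
          isCompact_uIcc).mono_set uIoc_subset_uIcc)
    have hGftc : ∀ a b, G b - G a = ∫ x in a..b, G' x := by
      intro a b
      have := (innerSL ℂ y).intervalIntegral_comp_comm (hg'i a b)
      simp only [innerSL_apply_apply] at this
      simp only [hG, hG']
      rw [this, ← hg.ftc, inner_sub_right]
    have hG2 : MemLp G 2 volume := (innerSL ℂ y).comp_memLp' hg.memLp
    have hG'2 : MemLp G' 2 volume := (innerSL ℂ y).comp_memLp' hg.memLp_deriv
    have key := ibp_complex hGftc hG2 hG'2 hd' hc h2' h2''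
    have key2 := congrArg (starRingEnd ℂ) key
    rw [← integral_conj, map_zero] at key2
    have c0 : ∀ (v : Vec m) (r : ℝ), inner ℂ v (((r : ℝ) : ℂ) • y) =
        ((r : ℝ) : ℂ) * (starRingEnd ℂ) (inner ℂ y v) := by
      intro v r
      rw [inner_smul_right, inner_conj_symm]
    have c2 : (∫ x, inner ℂ (g x) (Matrix.toEuclideanLin (W x) (((h x : ℝ) : ℂ) • y))) =
        ∫ x, ((-h'' x - lam * h x : ℝ) : ℂ) * (starRingEnd ℂ) (G x) := by
      refine integral_congr_ae (hW.mono fun x hx => ?_)
      simp only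
      rw [hx, c0]
    rw [c2]
    simp only [c0]
    have hGc : MemLp (fun x => (starRingEnd ℂ) (G x)) 2 volume := hG2.star
    have hG'c : MemLp (fun x => (starRingEnd ℂ) (G' x)) 2 volume := hG'2.star
    have i1 : Integrable fun x => ((h' x : ℝ) : ℂ) * (starRingEnd ℂ) (G' x) :=
      (h2'.ofReal (K := ℂ)).integrable_mul hG'c
    have i2 : Integrable fun x => ((h'' x : ℝ) : ℂ) * (starRingEnd ℂ) (G x) :=
      (h2''.ofReal (K := ℂ)).integrable_mul hGc
    have i3 : Integrable fun x => ((h x : ℝ) : ℂ) * (starRingEnd ℂ) (G x) :=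
      (h2.ofReal (K := ℂ)).integrable_mul hGc
    have e1 : (∫ x, ((-h'' x - lam * h x : ℝ) : ℂ) * (starRingEnd ℂ) (G x)) =
        -(∫ x, ((h'' x : ℝ) : ℂ) * (starRingEnd ℂ) (G x)) -
          (lam : ℂ) * ∫ x, ((h x : ℝ) : ℂ) * (starRingEnd ℂ) (G x) := by
      have i4 : Integrable fun x => -(((h'' x : ℝ) : ℂ) * (starRingEnd ℂ) (G x)) := i2.neg
      rw [← integral_neg, ← integral_const_mul, ← integral_sub i4 (i3.const_mul _)]
      congr 1
      funext x
      push_cast
      ring
    have e2 : (∫ x, ((h' x : ℝ) : ℂ) * (starRingEnd ℂ) (G' x)) +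
        ∫ x, ((h'' x : ℝ) : ℂ) * (starRingEnd ℂ) (G x) = 0 := by
      rw [← integral_add i1 i2, ← key2]
      congr 1
      funext x
      simp only [map_add, map_mul, Complex.conj_ofReal]
      ring
    rw [e1]
    linear_combination e2

theorem mem_aff {f : ℝ → ℝ} (hc : Continuous f) (h2 : MemLp f 2 volume) {k : ℝ} (hk : k ≠ 0)
    (c a : ℝ) : MemLp (fun x => a * f (k * (x - c))) 2 volume := by
  have hc' : Continuous fun x => f (k * (x - c)) := hc.comp (by fun_prop)
  refine MemLp.const_mul ?_ a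
  rw [memLp_two_iff_integrable_sq hc'.aestronglyMeasurable]
  rw [memLp_two_iff_integrable_sq hc.aestronglyMeasurable] at h2
  exact (h2.comp_mul_left' hk).comp_sub_right c

theorem der_aff {f : ℝ → ℝ} {d k c x : ℝ} (a : ℝ) (h : HasDerivAt f d (k * (x - c))) :
    HasDerivAt (fun x => a * f (k * (x - c))) (a * k * d) x := by
  have h1 : HasDerivAt (fun x : ℝ => k * (x - c)) k x := by
    simpa using ((hasDerivAt_id x).sub_const c).const_mul k
  refine ((h.comp x h1).const_mul a).congr_deriv ?_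
  ring

/-- the normalised ground state of one soliton -/
theorem ex_state {ν k : ℝ} (hν : 0 < ν) (hk : 0 < k) (c : ℝ) :
    ∃ h h' h'' : ℝ → ℝ, (∀ x, HasDerivAt h (h' x) x) ∧ (∀ x, HasDerivAt h' (h'' x) x) ∧
      Continuous h'' ∧ MemLp h 2 volume ∧ MemLp h' 2 volume ∧ MemLp h'' 2 volume ∧
      (∀ x, h'' x = (k ^ 2 - wS ν k c x) * h x) ∧ ∫ x, h x * h x = 1 := by
  have hq : 0 < 1 / ν := by positivity
  set q := 1 / ν with hqd
  have c1 : Continuous fun x => -(tn q x * psi q x) :=
    ((continuous_tn q).mul (continuous_psi q)).neg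
  have c2 : Continuous fun x => (1 - (1 + q) * sech2 q x) * psi q x :=
    (continuous_const.sub (continuous_const.mul (sech2_continuous q))).mul (continuous_psi q)
  have m0 := mem_aff (continuous_psi q) (memLp_psi hq) hk.ne' c 1
  have cs : Continuous fun x => 1 * psi q (k * (x - c)) :=
    continuous_const.mul ((continuous_psi q).comp (by fun_prop))
  rw [memLp_two_iff_integrable_sq cs.aestronglyMeasurable] at m0
  have hpos : 0 < ∫ x, (1 * psi q (k * (x - c))) ^ 2 := by
    refine integral_pos_of_integrable_nonneg_nonzero (x := 0) (cs.pow 2) m0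
      (fun x => sq_nonneg _) ?_
    have := psi_pos q (k * (0 - c))
    positivity
  set n := ∫ x, (1 * psi q (k * (x - c))) ^ 2 with hn
  set a := (√n)⁻¹ with ha
  refine ⟨fun x => a * psi q (k * (x - c)),
    fun x => a * k * -(tn q (k * (x - c)) * psi q (k * (x - c))),
    fun x => a * k * k * ((1 - (1 + q) * sech2 q (k * (x - c))) * psi q (k * (x - c))),
    fun x => der_aff a (hasDerivAt_psi hq _),
    fun x => der_aff (f := fun x => -(tn q x * psi q x)) (a * k) (hasDerivAt_psi' hq _),
    continuous_const.mul (c2.comp (by fun_prop)),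
    mem_aff (continuous_psi q) (memLp_psi hq) hk.ne' c a,
    mem_aff c1 (memLp_psi' hq) hk.ne' c (a * k),
    mem_aff c2 (memLp_psi'' hq) hk.ne' c (a * k * k), fun x => ?_, ?_⟩
  · unfold wS
    rw [← hqd]
    ring
  · have e : ∀ x, a * psi q (k * (x - c)) * (a * psi q (k * (x - c))) =
        (a * a) * (1 * psi q (k * (x - c))) ^ 2 := fun x => by ring
    simp only [e]
    rw [integral_const_mul, ← hn, ha, ← mul_inv, Real.mul_self_sqrt hpos.le,
      inv_mul_cancel₀ hpos.ne']

/-- the `i`-th column as a vector -/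
noncomputable def colV {m N : ℕ} (Y : Mat m N) (i : Fin N) : Vec m :=
  WithLp.toLp 2 fun a => Y a i

theorem inner_colV {m N : ℕ} (Y : Mat m N) (i j : Fin N) :
    inner ℂ (colV Y i) (colV Y j) = (Yᴴ * Y) i j := by
  unfold colV
  rw [EuclideanSpace.inner_toLp_toLp, Matrix.mul_apply, dotProduct]
  refine Finset.sum_congr rfl fun a _ => ?_
  rw [Matrix.conjTranspose_apply, Pi.star_apply, mul_comm]

theorem act_colV {m N : ℕ} {Y : Mat m N} (hY : Yᴴ * Y = 1) (w : Fin N → ℝ) (i : Fin N) :
    Matrix.toEuclideanLin (Y * dg w * Yᴴ) (colV Y i) = ((w i : ℝ) : ℂ) • colV Y i := by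
  have e : Y * dg w * Yᴴ * Y = Y * dg w := by
    rw [Matrix.mul_assoc, hY, Matrix.mul_one]
  ext a
  have h1 : (Matrix.toEuclideanLin (Y * dg w * Yᴴ) (colV Y i)) a = (Y * dg w * Yᴴ * Y) a i := by
    rw [Matrix.mul_apply]
    rfl
  rw [h1, e]
  unfold dg
  rw [Matrix.mul_diagonal, mul_comm]
  rfl

theorem conv_of (hS : SOL) : CONV := by
  intro γ hγ m N W Y k c hY hk hW
  have hν : 0 < γ - 1 / 2 := by linarith
  choose h h' h'' d1 d2 hc m0 m1 m2 he hn using fun i => ex_state hν (hk i) (c i)
  refine ⟨fun i => -(k i ^ 2), fun i x => ((h i x : ℝ) : ℂ) • colV Y i,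
    fun i x => ((h' i x : ℝ) : ℂ) • colV Y i, ⟨fun i => ?_, fun i => ?_, fun i j => ?_⟩, ?_⟩
  · have := hk i
    have h1 : 0 < k i ^ 2 := by positivity
    linarith
  · refine eig_smul (d1 i) (d2 i) (hc i) (m0 i) (m1 i) (m2 i) _ (hW.mono fun x hx => ?_)
    rw [hx, map_smul, act_colV hY, smul_smul, he i x]
    congr 1
    push_cast
    ring
  · have e : ∀ x, inner ℂ (((h i x : ℝ) : ℂ) • colV Y i) (((h j x : ℝ) : ℂ) • colV Y j) =
        ((h i x * h j x : ℝ) : ℂ) * (1 : Mat N N) i j := by
      intro x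
      rw [inner_smul_left, inner_smul_right, inner_colV, hY, Complex.conj_ofReal]
      push_cast
      ring
    simp only [e]
    rw [integral_mul_const, integral_complex_ofReal, Matrix.one_apply]
    by_cases hij : i = j
    · subst hij
      rw [hn i, if_pos rfl]
      simp
    · rw [if_neg hij, mul_zero]
  · have e1 : II γ W = ∑ i, ∫ x, wS (γ - 1 / 2) (k i) (c i) x ^ (γ + 1 / 2) := by
      unfold II
      rw [← integral_finsetSum _ fun i _ => (hS γ (k i) (c i) hγ (hk i)).1]
      refine integral_congr_ae (hW.mono fun x hx => ?_)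
      simp only
      rw [hx, trPow_iso (by linarith) hY fun i => (wS_pos hν (hk i) _ _).le]
    rw [e1, Finset.mul_sum]
    refine Finset.sum_congr rfl fun i _ => ?_
    rw [(hS γ (k i) (c i) hγ (hk i)).2, abs_neg, abs_of_nonneg (sq_nonneg _),
      ← Real.rpow_natCast (k i) 2, ← Real.rpow_mul (hk i).le]
    norm_num

theorem conv : CONV := conv_of sol

end Vale.Agent.P371ES
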