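import Vale.Agent.P371E.Spec

/-!
The soliton is an optimizer (`SOL`), and the trace of a power of `Y diag(w) Y^*`.
-/

namespace Vale.Agent.P371ES

open MeasureTheory Filter Topology Matrix Set
open Vale.Agent.P371 Vale.Agent.P371.G Vale.Agent.P371.PI Vale.Agent.P371E
open scoped ComplexOrder

theorem wS_pos {ν k : ℝ} (hν : 0 < ν) (hk : 0 < k) (c x : ℝ) : 0 < wS ν k c x := by
  unfold wS
  have := sech2_pos (1 / ν) (k * (x - c))
  positivity

theorem wS_rpow {ν k : ℝ} (hν : 0 < ν) (hk : 0 < k) (c p x : ℝ) :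
    wS ν k c x ^ p = (k ^ (2 * p) * (1 + 1 / ν) ^ p) * sech2 (1 / ν) (k * (x - c)) ^ p := by
  unfold wS
  have h := sech2_pos (1 / ν) (k * (x - c))
  rw [Real.mul_rpow (by positivity) (by positivity), Real.mul_rpow (by positivity) h.le,
    ← Real.rpow_natCast k 2, ← Real.rpow_mul hk.le, mul_assoc]
  norm_num

theorem sol : SOL := by
  intro γ k c hγ hk
  have hν : 0 < γ - 1 / 2 := by linarith
  have hq : 0 < 1 / (γ - 1 / 2) := by positivity
  have hp : 0 < γ + 1 / 2 := by linarith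
  obtain ⟨hI, hv⟩ := sech2_beta hq hp
  have h1 : Integrable (fun x : ℝ => sech2 (1 / (γ - 1 / 2)) (k * x) ^ (γ + 1 / 2)) volume :=
    hI.comp_mul_left' hk.ne'
  have h2 : Integrable (fun x : ℝ => sech2 (1 / (γ - 1 / 2)) (k * (x - c)) ^ (γ + 1 / 2)) volume :=
    h1.comp_sub_right c
  simp only [wS_rpow hν hk]
  refine ⟨h2.const_mul _, ?_⟩
  have h3 : ∫ x : ℝ, sech2 (1 / (γ - 1 / 2)) (k * (x - c)) ^ (γ + 1 / 2) =
      ∫ x : ℝ, sech2 (1 / (γ - 1 / 2)) (k * x) ^ (γ + 1 / 2) :=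
    integral_sub_right_eq_self (fun x : ℝ => sech2 (1 / (γ - 1 / 2)) (k * x) ^ (γ + 1 / 2)) c
  have h4 := Measure.integral_comp_mul_left
    (fun x : ℝ => sech2 (1 / (γ - 1 / 2)) x ^ (γ + 1 / 2)) k
  rw [integral_const_mul, h3, h4, hv, Cg_eq hγ, soliton_const hγ, abs_of_pos (inv_pos.mpr hk),
    smul_eq_mul]
  have hB := ProbabilityTheory.beta_pos hp hp
  have e : k ^ (2 * (γ + 1 / 2)) = k ^ (2 * γ) * k := by
    rw [show 2 * (γ + 1 / 2) = 2 * γ + 1 by ring, Real.rpow_add_one hk.ne']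
  rw [e]
  have h5 : (0:ℝ) < (1 + 1 / (γ - 1 / 2)) ^ (γ + 1 / 2) := by positivity
  have h6 : (0:ℝ) < 4 ^ (γ + 1 / 2) * ProbabilityTheory.beta (γ + 1 / 2) (γ + 1 / 2) /
      (2 * (1 / (γ - 1 / 2))) := by positivity
  generalize (1 + 1 / (γ - 1 / 2)) ^ (γ + 1 / 2) = A at h5 ⊢
  generalize 4 ^ (γ + 1 / 2) * ProbabilityTheory.beta (γ + 1 / 2) (γ + 1 / 2) /
      (2 * (1 / (γ - 1 / 2))) = B at h6 ⊢
  field_simp

theorem dg_psd {N : ℕ} {w : Fin N → ℝ} (hw : ∀ i, 0 ≤ w i) : (dg w).PosSemidef := by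
  unfold dg
  refine Matrix.PosSemidef.diagonal fun i => ?_
  exact Complex.zero_le_real.mpr (hw i)

theorem trPow_iso {m N : ℕ} {p : ℝ} (hp : 1 ≤ p) {Y : Mat m N} (hY : Yᴴ * Y = 1)
    {w : Fin N → ℝ} (hw : ∀ i, 0 ≤ w i) : trPow p (Y * dg w * Yᴴ) = ∑ i, w i ^ p := by
  have h1 : (1 - Yᴴ * Y).PosSemidef := by rw [hY, sub_self]; exact PosSemidef.zero
  have h2 := contr_swap h1
  have hD := dg_psd hw
  have a1 := trPow_conj_le hp hD h1 h2
  have hW : (Y * dg w * Yᴴ).PosSemidef := hD.mul_mul_conjTranspose_same Y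
  have a2 := trPow_conj_le (V := Yᴴ) hp hW (by rw [conjTranspose_conjTranspose]; exact h2)
    (by rw [conjTranspose_conjTranspose]; exact h1)
  have e : Yᴴ * (Y * dg w * Yᴴ) * Yᴴᴴ = dg w := by
    rw [conjTranspose_conjTranspose]
    calc Yᴴ * (Y * dg w * Yᴴ) * Y = (Yᴴ * Y) * dg w * (Yᴴ * Y) := by
          simp only [Matrix.mul_assoc]
      _ = dg w := by rw [hY, Matrix.one_mul, Matrix.mul_one]
  rw [e] at a2
  have a3 : trPow p (dg w) = ∑ i, w i ^ p := trPow_diagonal p w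
  rw [← a3]
  exact le_antisymm a1 a2

end Vale.Agent.P371ES
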